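import Vale.Agent.P091.Multi.LSqrtLog
import Vale.Agent.P091.Glue

/-!
P091: divergence of Fourier series in `φ(L)` up to `o(u √(log u · log log log u))`, in particular
in `L √(log L)`.
-/

open Filter Topology MeasureTheory AddCircle

namespace Vale.Agent.Results.P091.SqrtLogDivergence

/-- (1) If `φ` is monotone, nonnegative and `φ(u) = o(u √(log u · log log log u))`, some integrable
`f` with `φ(|f|)` integrable has almost everywhere unbounded, hence divergent, partial sums.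
(2) In particular this holds in `L √(log L)`.
(3) If `φ(u) = o(u √(log u))`, the partial sums can be made unbounded at every point. -/
theorem result {T : ℝ} [hT : Fact (0 < T)] :
    (∀ φ : ℝ → ℝ, MonotoneOn φ (Set.Ici 0) → (∀ u, 0 ≤ u → 0 ≤ φ u) →
      (φ =o[atTop] fun u => u * Real.sqrt (Real.log u * Real.log (Real.log (Real.log u)))) →
      ∃ f : AddCircle T → ℂ,
        Integrable f haarAddCircle ∧
        Integrable (fun x => φ ‖f x‖) haarAddCircle ∧
        ∀ᵐ x ∂(haarAddCircle : Measure (AddCircle T)),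
          (∀ C : ℝ, ∃ N : ℕ,
            C < ‖∑ k ∈ Finset.Icc (-(N : ℤ)) N, fourierCoeff f k * fourier k x‖) ∧
          ¬ ∃ l : ℂ, Tendsto
            (fun N : ℕ => ∑ k ∈ Finset.Icc (-(N : ℤ)) N, fourierCoeff f k * fourier k x)
            atTop (𝓝 l)) ∧
    (∃ f : AddCircle T → ℂ,
        Integrable f haarAddCircle ∧
        Integrable (fun x => ‖f x‖ * Real.sqrt (Real.log (2 + ‖f x‖))) haarAddCircle ∧
        ∀ᵐ x ∂(haarAddCircle : Measure (AddCircle T)),
          ¬ ∃ l : ℂ, Tendsto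
            (fun N : ℕ => ∑ k ∈ Finset.Icc (-(N : ℤ)) N, fourierCoeff f k * fourier k x)
            atTop (𝓝 l)) ∧
    (∀ φ : ℝ → ℝ, MonotoneOn φ (Set.Ici 0) → (∀ u, 0 ≤ u → 0 ≤ φ u) →
      (φ =o[atTop] fun u => u * Real.sqrt (Real.log u)) →
      ∃ f : AddCircle T → ℂ,
        Integrable f haarAddCircle ∧
        Integrable (fun x => φ ‖f x‖) haarAddCircle ∧
        ∀ x : AddCircle T,
          (∀ C : ℝ, ∃ N : ℕ,
            C < ‖∑ k ∈ Finset.Icc (-(N : ℤ)) N, fourierCoeff f k * fourier k x‖) ∧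
          ¬ ∃ l : ℂ, Tendsto
            (fun N : ℕ => ∑ k ∈ Finset.Icc (-(N : ℤ)) N, fourierCoeff f k * fourier k x)
            atTop (𝓝 l)) := by
  have div : ∀ (s : ℕ → ℂ), (∀ C : ℝ, ∃ N, C < ‖s N‖) → ¬ ∃ l, Tendsto s atTop (𝓝 l) := by
    rintro s hs ⟨l, hl⟩
    obtain ⟨C, hC⟩ := hl.norm.bddAbove_range
    obtain ⟨N, hN⟩ := hs C
    exact absurd (hC ⟨N, rfl⟩) (not_le.2 hN)
  have main : ∀ φ : ℝ → ℝ, MonotoneOn φ (Set.Ici 0) → (∀ u, 0 ≤ u → 0 ≤ φ u) →
      (φ =o[atTop] fun u => u * Real.sqrt (Real.log u * Real.log (Real.log (Real.log u)))) →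
      ∃ f : AddCircle T → ℂ,
        Integrable f haarAddCircle ∧
        Integrable (fun x => φ ‖f x‖) haarAddCircle ∧
        ∀ᵐ x ∂(haarAddCircle : Measure (AddCircle T)),
          (∀ C : ℝ, ∃ N : ℕ,
            C < ‖∑ k ∈ Finset.Icc (-(N : ℤ)) N, fourierCoeff f k * fourier k x‖) ∧
          ¬ ∃ l : ℂ, Tendsto
            (fun N : ℕ => ∑ k ∈ Finset.Icc (-(N : ℤ)) N, fourierCoeff f k * fourier k x)
            atTop (𝓝 l) := by
    intro φ hmono hpos ho
    obtain ⟨f, hf, hφ, hu⟩ := Vale.Agent.P091.Multi.ae_unbounded (T := T) φ hmono hpos ho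
    exact ⟨f, hf, hφ, hu.mono fun x hx => ⟨hx, div _ hx⟩⟩
  refine ⟨main, ?_, fun φ hmono hpos ho => ?_⟩
  · obtain ⟨f, hf, hφ, hu⟩ := main (fun u => u * Real.sqrt (Real.log (2 + u)))
      Vale.Agent.P091.Multi.mono_sqrtLog (fun u hu => mul_nonneg hu (Real.sqrt_nonneg _))
      Vale.Agent.P091.Multi.sqrtLog_littleO
    exact ⟨f, hf, hφ, hu.mono fun x hx => hx.2⟩
  · obtain ⟨f, hf, hφ, hu⟩ := Vale.Agent.P091.everywhere_unbounded (T := T) φ hmono hpos ho
    exact ⟨f, hf, hφ, fun x => ⟨hu x, div _ (hu x)⟩⟩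

end Vale.Agent.Results.P091.SqrtLogDivergence
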